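import Vale.Agent.P238.Defs
import Vale.Agent.P238.C1

/-!
# P238: `c₁({0,1}ⁿ, ED) ≥ c (log n)² / log log n`
-/

namespace Vale.Agent.Results.P238.LogSqLower

open Vale.Agent.P238

/-- There are `c > 0` and `n₀` such that `c₁({0,1}ⁿ, ED) ≥ c (log n)² / log log n` for all
`n ≥ n₀`. -/
theorem result : ∃ c : ℝ, 0 < c ∧ ∃ n₀ : ℕ, ∀ n : ℕ, n₀ ≤ n →
    ENNReal.ofReal (c * (Real.log n) ^ 2 / Real.log (Real.log n)) ≤ c1 n := by
  obtain ⟨c, hc, n₀, h⟩ := c1_lower'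
  exact ⟨c, hc, n₀, h⟩

end Vale.Agent.Results.P238.LogSqLower
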